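import Mathlib

/-!
# The order along a coordinate subspace of linear forms over `F₂`

`F = FractionRing (MvPolynomial ι (ZMod 2))`; for a set `S` of variables `poleOrd S` is the
valuation measuring the degree in the variables in `S`.  A linear form has order `0` unless
it only involves variables in `S`, when it has order `1`.
-/

namespace Vale.Agent.P199.Pole

open MvPolynomial

variable {ι : Type*} (S : Set ι)

/-- The rational function field over `F₂`. -/
abbrev FF (ι : Type*) : Type _ := FractionRing (MvPolynomial ι (ZMod 2))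

/-- The linear form of a character. -/
noncomputable def lin [Fintype ι] (χ : ι → ZMod 2) : MvPolynomial ι (ZMod 2) := ∑ i, C (χ i) * X i

open Classical in
/-- Multiply the variables in `S` by the deformation parameter. -/
noncomputable def scaleVars : MvPolynomial ι (ZMod 2) →+* Polynomial (FF ι) :=
  eval₂Hom (Polynomial.C.comp ((algebraMap (MvPolynomial ι (ZMod 2)) (FF ι)).comp C))
    (fun i => Polynomial.C (algebraMap (MvPolynomial ι (ZMod 2)) (FF ι) (X i)) * if i ∈ S then Polynomial.X else 1)

theorem eval_one_scaleVars (p : MvPolynomial ι (ZMod 2)) :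
    (scaleVars S p).eval 1 = algebraMap _ (FF ι) p := by
  have : (Polynomial.evalRingHom (1 : FF ι)).comp (scaleVars S)
      = algebraMap (MvPolynomial ι (ZMod 2)) (FF ι) := by
    refine MvPolynomial.ringHom_ext (fun a => ?_) (fun i => ?_)
    · simp [scaleVars]
    · simp only [RingHom.comp_apply, scaleVars, eval₂Hom_X', map_mul, Polynomial.coe_evalRingHom,
        Polynomial.eval_C]
      split_ifs <;> simp
  exact RingHom.congr_fun this p

/-- The scaling map into Laurent series. -/
noncomputable def toLaurent : MvPolynomial ι (ZMod 2) →+* LaurentSeries (FF ι) :=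
  ((HahnSeries.ofPowerSeries ℤ (FF ι)).comp Polynomial.coeToPowerSeries.ringHom).comp (scaleVars S)

theorem toLaurent_injective : Function.Injective (toLaurent S) := by
  refine (HahnSeries.ofPowerSeries_injective.comp (Polynomial.coe_injective _)).comp ?_
  intro p q h
  have := congrArg (Polynomial.eval (1 : FF ι)) h
  change (scaleVars S p).eval 1 = (scaleVars S q).eval 1 at this
  rw [eval_one_scaleVars, eval_one_scaleVars] at this
  exact IsFractionRing.injective _ _ this

/-- The scaling map on the function field. -/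
noncomputable def toLaurentF : FF ι →+* LaurentSeries (FF ι) :=
  IsFractionRing.lift (toLaurent_injective S)

/-- The order along the variables in `S`. -/
noncomputable def poleOrd (f : FF ι) : WithTop ℤ := (toLaurentF S f).orderTop

theorem poleOrd_zero : poleOrd S (0 : FF ι) = ⊤ := by simp [poleOrd]

theorem poleOrd_one : poleOrd S (1 : FF ι) = 0 := by simp [poleOrd]

theorem poleOrd_eq_top_iff {f : FF ι} : poleOrd S f = ⊤ ↔ f = 0 := by
  rw [poleOrd, HahnSeries.orderTop_eq_top, map_eq_zero_iff _ (RingHom.injective _)]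

theorem poleOrd_mul (f g : FF ι) : poleOrd S (f * g) = poleOrd S f + poleOrd S g := by
  rw [poleOrd, map_mul, HahnSeries.orderTop_mul]; rfl

theorem min_le_poleOrd_add (f g : FF ι) :
    min (poleOrd S f) (poleOrd S g) ≤ poleOrd S (f + g) := by
  rw [poleOrd, poleOrd, poleOrd, map_add]; exact HahnSeries.min_orderTop_le_orderTop_add

theorem le_poleOrd_sum {α : Type*} (s : Finset α) (f : α → FF ι) (v : WithTop ℤ)
    (h : ∀ a ∈ s, v ≤ poleOrd S (f a)) : v ≤ poleOrd S (∑ a ∈ s, f a) := by
  classical
  induction s using Finset.induction_on with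
  | empty => simp [poleOrd_zero]
  | insert a s ha ih =>
    rw [Finset.sum_insert ha]
    exact (le_min (h a (Finset.mem_insert_self _ _))
      (ih fun b hb => h b (Finset.mem_insert_of_mem hb))).trans (min_le_poleOrd_add S _ _)

theorem exists_poleOrd_le_of_sum {α : Type*} {s : Finset α} {f : α → FF ι}
    (h : ∑ a ∈ s, f a ≠ 0) : ∃ a ∈ s, f a ≠ 0 ∧ poleOrd S (f a) ≤ poleOrd S (∑ a ∈ s, f a) := by
  by_contra hne
  simp only [not_exists, not_and, not_le] at hne
  obtain ⟨m, hm, hmin⟩ : ∃ m ∈ s, ∀ a ∈ s, poleOrd S (f m) ≤ poleOrd S (f a) :=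
    s.exists_min_image (fun a => poleOrd S (f a)) (Finset.nonempty_of_sum_ne_zero h)
  have h1 := le_poleOrd_sum S s f _ hmin
  by_cases hm0 : f m = 0
  · rw [hm0, poleOrd_zero, top_le_iff, poleOrd_eq_top_iff] at h1
    exact h h1
  · exact absurd h1 (not_le.mpr (hne m hm hm0))

theorem poleOrd_lin_of_not_subset [Fintype ι] {χ : ι → ZMod 2} (h : ∃ i, i ∉ S ∧ χ i ≠ 0) :
    poleOrd S (algebraMap _ (FF ι) (lin χ)) = 0 := by
  classical
  set p : Polynomial (FF ι) := scaleVars S (lin χ) with hp
  have hp0 : p.coeff 0 = algebraMap _ (FF ι) (lin fun i => if i ∈ S then 0 else χ i) := by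
    simp only [hp, lin, map_sum, map_mul, Polynomial.finsetSum_coeff]
    refine Finset.sum_congr rfl fun i _ => ?_
    simp only [scaleVars, eval₂Hom_C, eval₂Hom_X', RingHom.comp_apply]
    split_ifs <;> simp
  have hne : p.coeff 0 ≠ 0 := by
    rw [hp0, ne_eq, map_eq_zero_iff _ (IsFractionRing.injective _ _)]
    obtain ⟨i, hiS, hi⟩ := h
    intro h0
    have := congrArg (MvPolynomial.coeff (Finsupp.single i 1)) h0
    simp only [lin, coeff_sum, coeff_C_mul, coeff_X, Finsupp.single_left_inj one_ne_zero,
      mul_ite, mul_one, mul_zero, Finset.sum_ite_eq', Finset.mem_univ, if_true, coeff_zero,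
      if_neg hiS] at this
    exact hi this
  have e : toLaurentF S (algebraMap _ (FF ι) (lin χ))
      = HahnSeries.ofPowerSeries ℤ (FF ι) (p : PowerSeries (FF ι)) := IsFractionRing.lift_algebraMap _ _
  rw [poleOrd, e]
  refine le_antisymm ?_ ?_
  · refine HahnSeries.orderTop_le_of_coeff_ne_zero (g := (0 : ℤ)) ?_
    rw [show (0 : ℤ) = ((0 : ℕ) : ℤ) from rfl, HahnSeries.ofPowerSeries_apply_coeff,
      Polynomial.coeff_coe]
    exact hne
  · refine HahnSeries.le_orderTop_iff_forall.mpr fun n hn => ?_
    have hn' : n < 0 := by exact_mod_cast hn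
    rw [HahnSeries.ofPowerSeries_apply, HahnSeries.embDomain_of_notMem_range]
    rintro ⟨k, hk⟩
    change (k : ℤ) = n at hk
    omega

theorem poleOrd_lin_of_subset [Fintype ι] {χ : ι → ZMod 2} (h : ∀ i, i ∉ S → χ i = 0)
    (hχ : χ ≠ 0) : poleOrd S (algebraMap _ (FF ι) (lin χ)) = 1 := by
  classical
  have hp : scaleVars S (lin χ) = Polynomial.C (algebraMap _ (FF ι) (lin χ)) * Polynomial.X := by
    simp only [lin, map_sum, map_mul, Finset.sum_mul]
    refine Finset.sum_congr rfl fun i _ => ?_
    simp only [scaleVars, eval₂Hom_C, eval₂Hom_X', RingHom.comp_apply]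
    split_ifs with hi
    · ring
    · simp [h i hi]
  have hne : algebraMap _ (FF ι) (lin χ) ≠ 0 := by
    rw [ne_eq, map_eq_zero_iff _ (IsFractionRing.injective _ _)]
    obtain ⟨i, hi⟩ := Function.ne_iff.mp hχ
    intro h0
    have := congrArg (MvPolynomial.coeff (Finsupp.single i 1)) h0
    simp only [lin, coeff_sum, coeff_C_mul, coeff_X, Finsupp.single_left_inj one_ne_zero,
      mul_ite, mul_one, mul_zero, Finset.sum_ite_eq', Finset.mem_univ, if_true, coeff_zero] at this
    exact hi this
  have e : toLaurentF S (algebraMap _ (FF ι) (lin χ))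
      = HahnSeries.ofPowerSeries ℤ (FF ι) (scaleVars S (lin χ) : PowerSeries (FF ι)) :=
    IsFractionRing.lift_algebraMap _ _
  rw [poleOrd, e, hp, Polynomial.coe_mul, Polynomial.coe_C, Polynomial.coe_X, map_mul,
    HahnSeries.orderTop_mul, HahnSeries.ofPowerSeries_C, HahnSeries.ofPowerSeries_X,
    HahnSeries.C_apply, HahnSeries.orderTop_single hne, HahnSeries.orderTop_single one_ne_zero]
  rfl

end Vale.Agent.P199.Pole
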